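import Vale.Agent.P347.Colour.Main

/-!
# P347: polylogarithmically many queries when the interaction graph has few colours
-/

namespace Vale.Agent.Results.P347.ColourPolylog

open MeasureTheory Real
open Vale.Agent.P347.Colour

noncomputable section

/-- The derivative of `V` at `x` in direction `v`. -/
def dir {d : ℕ} (V : (Fin d → ℝ) → ℝ) (x v : Fin d → ℝ) : ℝ := fderiv ℝ V x v

/-- The class of potentials of the problem, whose interaction graph is properly coloured by `c`. -/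
def InClass {d χ : ℕ} (c : Fin d → Fin χ) (V : (Fin d → ℝ) → ℝ) : Prop :=
  ContDiff ℝ 2 V ∧ V 0 = 0 ∧ (∀ u, dir V 0 u = 0) ∧
    (∀ x u, ∑ i, u i ^ 2 ≤ dir (fun z => dir V z u) x u ∧
      dir (fun z => dir V z u) x u ≤ 2 * ∑ i, u i ^ 2) ∧
    ∀ x, ∀ i j, i ≠ j → c i = c j → dir (fun z => dir V z (Pi.single j 1)) x (Pi.single i 1) = 0

theorem dir_dir {d : ℕ} {V : (Fin d → ℝ) → ℝ} (h : ContDiff ℝ 2 V) (x u v : Fin d → ℝ) :
    dir (fun z => dir V z v) x u = fderiv ℝ (fderiv ℝ V) x u v := by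
  have h1 := (((h.fderiv_right (m := 1) (by norm_num)).differentiable one_ne_zero) x).hasFDerivAt
  have h2 := (ContinuousLinearMap.apply ℝ ℝ v).hasFDerivAt.comp x h1
  simp only [dir]
  exact congrArg (fun L => L u) h2.fderiv

theorem cls {d χ : ℕ} {c : Fin d → Fin χ} {V : (Fin d → ℝ) → ℝ} (h : InClass c V) : Cls c V := by
  obtain ⟨h1, h2, h3, h4, h5⟩ := h
  exact ⟨h1, h2, ContinuousLinearMap.ext fun u => h3 u, fun x u => by
    rw [← dir_dir h1]; exact h4 x u, fun x i j hij hc => by rw [← dir_dir h1]; exact h5 x i j hij hc⟩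

/-- An adaptive randomized sampler with `O(χ ^ 2 (log d) ^ 4)` first-order queries for potentials
whose interaction graph is properly coloured by a given map into `χ` colours. -/
theorem result : ∃ C : ℝ, ∀ (d χ : ℕ) (c : Fin d → Fin χ), 2 ≤ d →
    ∃ q : ℕ, (q : ℝ) ≤ C * (χ : ℝ) ^ 2 * Real.log d ^ 4 ∧
    ∃ (Ω : Type) (_ : MeasurableSpace Ω) (μ : Measure Ω), IsProbabilityMeasure μ ∧
    ∃ F : (Pt d → Resp d) → Ω → Pt d, Uses q Ω F ∧
      ∀ V : Pt d → ℝ, InClass c V → ∀ B : Set (Pt d), MeasurableSet B →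
        |(μ.map (F (oracle V))).real B - (law V).real B| ≤ 1 / 10 := by
  refine ⟨2400000000000, fun d χ c hd => ?_⟩
  rcases le_or_gt χ d with hχd | hχd
  · have hχ : 1 ≤ χ := Nat.one_le_iff_ne_zero.2 fun h => (h ▸ c ⟨0, by omega⟩ : Fin 0).elim0
    obtain ⟨q, hq, Ω, mΩ, μ, hμ, F, hF, hclose⟩ := sampler c hd hχ hχd
    exact ⟨q, hq, Ω, mΩ, μ, hμ, F, hF, fun V hV B hB => hclose V (cls hV) B hB⟩
  · obtain ⟨q, hq, Ω, mΩ, μ, hμ, F, hF, hclose⟩ :=
      sampler (id : Fin d → Fin d) hd (by omega) le_rfl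
    refine ⟨q, hq.trans ?_, Ω, mΩ, μ, hμ, F, hF, fun V hV B hB =>
      hclose V { cls hV with sep := fun _ _ _ hij h => absurd h hij } B hB⟩
    have : (d : ℝ) ≤ χ := by exact_mod_cast hχd.le
    gcongr

end

end Vale.Agent.Results.P347.ColourPolylog
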