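import Vale.Agent.P347.Sep.Product

/-!
# P347: separable potentials need only polylogarithmically many queries
-/

namespace Vale.Agent.Results.P347.SeparablePolylog

open MeasureTheory ProbabilityTheory Set Real
open Vale.Agent.P347.Sep
open scoped NNReal ENNReal

/-- A nonadaptive sampler with `O((log d)^2)` first-order queries for separable potentials. -/
theorem result : ∃ C : ℝ, ∀ d : ℕ, 2 ≤ d → ∃ q : ℕ, (q : ℝ) ≤ C * Real.log d ^ 2 ∧
    ∃ (Ω : Type) (_ : MeasurableSpace Ω) (μ : Measure Ω), IsProbabilityMeasure μ ∧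
    ∃ (query : Fin q → Ω → Fin d → ℝ) (out : Ω × (Fin q → ℝ × (Fin d → ℝ)) → Fin d → ℝ),
      (∀ m, Measurable (query m)) ∧ Measurable out ∧
      ∀ v : Fin d → ℝ → ℝ,
        (∀ i, ContDiff ℝ 2 (v i) ∧ v i 0 = 0 ∧ deriv (v i) 0 = 0 ∧
          ∀ y, 1 ≤ deriv (deriv (v i)) y ∧ deriv (deriv (v i)) y ≤ 2) →
        ∀ B : Set (Fin d → ℝ), MeasurableSet B →
          |(μ.map fun ω => out (ω, fun m =>
              (∑ i, v i (query m ω i), fun i => deriv (v i) (query m ω i)))).real B -
            (((volume.withDensity fun x : Fin d → ℝ =>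
                ENNReal.ofReal (Real.exp (-∑ i, v i (x i)))) univ)⁻¹ •
              volume.withDensity fun x : Fin d → ℝ =>
                ENNReal.ofReal (Real.exp (-∑ i, v i (x i)))).real B| ≤ 1 / 10 := by
  refine ⟨10200, fun d hd => ?_⟩
  have hd' : (2 : ℝ) ≤ d := by exact_mod_cast hd
  have hlog : (0.69 : ℝ) ≤ log d :=
    le_trans (by linarith [log_two_gt_d9]) (log_le_log (by norm_num) hd')
  set L : ℝ≥0 := (4 * (log d + 8)).toNNReal
  have hL : (L : ℝ) = 4 * (log d + 8) := Real.coe_toNNReal _ (by linarith)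
  set K := ⌈(L : ℝ)⌉₊
  set J := ⌈3 * (L : ℝ)⌉₊
  have hK : (L : ℝ) ≤ K := Nat.le_ceil _
  have hJ : 3 * (L : ℝ) ≤ J := Nat.le_ceil _
  have hK' : (K : ℝ) ≤ 54 * log d := by
    have := Nat.ceil_lt_add_one L.coe_nonneg
    linarith
  have hJ' : (J : ℝ) ≤ 160 * log d := by
    have := Nat.ceil_lt_add_one (show (0 : ℝ) ≤ 3 * L by positivity)
    linarith
  refine ⟨K * J, ?_, Fin d → Fin K → Trial J, inferInstance,
    Measure.pi fun _ => Measure.pi fun _ => trialLaw J L, inferInstance,
    fun m ω i => pts (ω i (finProdFinEquiv.symm m).1) (finProdFinEquiv.symm m).2,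
    fun p i => pick (L : ℝ) K fun k => (p.1 i k, fun j => (p.2 (finProdFinEquiv (k, j))).2 i),
    fun m => by unfold pts; fun_prop,
    measurable_pi_lambda _ fun i => (measurable_pick (L : ℝ) K).comp (by fun_prop), ?_⟩
  · push_cast
    calc (K : ℝ) * J ≤ 54 * log d * (160 * log d) :=
          mul_le_mul hK' hJ' (by positivity) (by linarith)
      _ ≤ 10200 * log d ^ 2 := by nlinarith
  intro v hv B hB
  have hp : ∀ i, Pot (v i) := fun i => ⟨(hv i).1, (hv i).2.1, (hv i).2.2.1, (hv i).2.2.2⟩
  simp only [Equiv.symm_apply_apply]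
  have hmeas : ∀ i, Measurable (run (J := J) L (deriv (v i)) K) := fun i =>
    measurable_run L (hp i).contDiff_deriv.continuous.measurable K
  have hprob : ∀ i, IsProbabilityMeasure
      ((Measure.pi fun _ : Fin K => trialLaw J L).map (run L (deriv (v i)) K)) := fun i =>
    Measure.isProbabilityMeasure_map (hmeas i).aemeasurable
  have hgibbs : ∀ i, IsProbabilityMeasure (gibbs (v i)) := fun i => (hp i).isProb_gibbs
  have hmap : (Measure.pi fun _ : Fin d => Measure.pi fun _ : Fin K => trialLaw J L).map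
      (fun ω i => run L (deriv (v i)) K (ω i)) = Measure.pi fun i =>
        (Measure.pi fun _ : Fin K => trialLaw J L).map (run L (deriv (v i)) K) :=
    Measure.pi_map_pi fun i => (hmeas i).aemeasurable
  rw [← pi_gibbs hp]
  change |((Measure.pi fun _ : Fin d => Measure.pi fun _ : Fin K => trialLaw J L).map
    (fun ω i => run L (deriv (v i)) K (ω i))).real B - _| ≤ _
  rw [hmap]
  refine (pi_close d _ _ (13 * exp (-(L : ℝ) / 4)) hprob hgibbs (fun i S hS => ?_) B hB).trans ?_
  · rw [map_measureReal_apply (hmeas i) hS, ← (hp i).gauss_ratio hS]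
    exact (hp i).run_close (by linarith) hJ hK hS
  · have h8 : exp (-8 : ℝ) ≤ 1 / 130 := by
      rw [exp_neg, one_div]
      refine inv_anti₀ (by norm_num) ?_
      have h2 : (2 : ℝ) ^ 8 ≤ exp 1 ^ 8 :=
        pow_le_pow_left₀ (by norm_num) (by linarith [exp_one_gt_d9]) 8
      rw [← exp_nat_mul] at h2
      norm_num at h2
      linarith
    rw [hL, show -(4 * (log (d : ℝ) + 8)) / 4 = -log (d : ℝ) + -8 by ring, exp_add, exp_neg (log _),
      exp_log (by linarith)]
    field_simp
    linarith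

end Vale.Agent.Results.P347.SeparablePolylog
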