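import Vale.Agent.P347.Zero.Assembly
import Vale.Agent.P347.Zero.Outer

/-!
# P347: the dimension exponent of the query complexity is zero

The query bound for every positive power of the dimension, and its reading as the limit of
`log Q(d) / log d`.
-/

namespace Vale.Agent.Results.P347.ZeroExponent

open MeasureTheory Real Filter
open Vale.Agent.P347.Colour
open scoped Topology

noncomputable section

/-- The derivative of `V` at `x` in direction `v`. -/
def dir {d : ℕ} (V : (Fin d → ℝ) → ℝ) (x v : Fin d → ℝ) : ℝ := fderiv ℝ V x v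

/-- The class of potentials of the problem. -/
def InClass {d : ℕ} (V : (Fin d → ℝ) → ℝ) : Prop :=
  ContDiff ℝ 2 V ∧ V 0 = 0 ∧ (∀ u, dir V 0 u = 0) ∧
    ∀ x u, ∑ i, u i ^ 2 ≤ dir (fun z => dir V z u) x u ∧
      dir (fun z => dir V z u) x u ≤ 2 * ∑ i, u i ^ 2

theorem dir_dir {d : ℕ} {V : (Fin d → ℝ) → ℝ} (h : ContDiff ℝ 2 V) (x u v : Fin d → ℝ) :
    dir (fun z => dir V z v) x u = fderiv ℝ (fderiv ℝ V) x u v := by
  have h1 := (((h.fderiv_right (m := 1) (by norm_num)).differentiable one_ne_zero) x).hasFDerivAt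
  have h2 := (ContinuousLinearMap.apply ℝ ℝ v).hasFDerivAt.comp x h1
  simp only [dir]
  exact congrArg (fun L => L u) h2.fderiv

theorem cls {d : ℕ} {V : (Fin d → ℝ) → ℝ} (h : InClass V) : Cls (id : Fin d → Fin d) V := by
  obtain ⟨h1, h2, h3, h4⟩ := h
  exact ⟨h1, h2, ContinuousLinearMap.ext fun u => h3 u, fun x u => by
    rw [← dir_dir h1]; exact h4 x u, fun _ _ _ hij hc => absurd hc hij⟩

theorem upper : ∀ ε : ℝ, 0 < ε → ∃ C : ℝ, ∀ d : ℕ, 2 ≤ d → ∃ q : ℕ, (q : ℝ) ≤ C * (d : ℝ) ^ ε ∧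
    ∃ (Ω : Type) (_ : MeasurableSpace Ω) (μ : Measure Ω), IsProbabilityMeasure μ ∧
    ∃ F : (Pt d → Resp d) → Ω → Pt d, Uses q Ω F ∧
      ∀ V : Pt d → ℝ, InClass V → ∀ B : Set (Pt d), MeasurableSet B →
        |(μ.map (F (oracle V))).real B - (law V).real B| ≤ 1 / 10 := by
  intro ε hε
  obtain ⟨C, hC⟩ := Vale.Agent.P347.Zero.sampler_of_postStep Vale.Agent.P347.Zero.postStep hε
  refine ⟨C, fun d hd => ?_⟩
  obtain ⟨q, hq, Ω, mΩ, μ, hμ, F, hF, hclose⟩ := hC d hd
  exact ⟨q, hq, Ω, mΩ, μ, hμ, F, hF, fun V hV B hB => hclose V (cls hV) B hB⟩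

/-- Some algorithm with `q` queries samples every potential of the class. -/
def Samples (d q : ℕ) : Prop :=
  ∃ (Ω : Type) (_ : MeasurableSpace Ω) (μ : Measure Ω), IsProbabilityMeasure μ ∧
    ∃ F : (Pt d → Resp d) → Ω → Pt d, Uses q Ω F ∧
      ∀ V : Pt d → ℝ, InClass V → ∀ B : Set (Pt d), MeasurableSet B →
        |(μ.map (F (oracle V))).real B - (law V).real B| ≤ 1 / 10

/-- The query complexity of the problem. -/
def Q (d : ℕ) : ℕ := sInf {q | Samples d q}

/-- The exponent of the query complexity is zero. -/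
theorem exponent_zero : (∀ d : ℕ, 2 ≤ d → {q | Samples d q}.Nonempty) ∧
    Tendsto (fun d : ℕ => log (Q d) / log d) atTop (𝓝 0) := by
  refine ⟨fun d hd => ?_, Metric.tendsto_atTop.2 fun ε hε => ?_⟩
  · obtain ⟨C, hC⟩ := upper 1 one_pos
    obtain ⟨q, -, hq⟩ := hC d hd
    exact ⟨q, hq⟩
  obtain ⟨C, hC⟩ := upper (ε / 2) (half_pos hε)
  set K := max C 1
  obtain ⟨D, hD⟩ := exists_nat_ge (max 2 (exp (log K / (ε / 4))))
  refine ⟨D, fun d hd => ?_⟩
  have hdD : max 2 (exp (log K / (ε / 4))) ≤ (d : ℝ) := hD.trans (by exact_mod_cast hd)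
  have hd2 : (2 : ℝ) ≤ d := (le_max_left _ _).trans hdD
  have hl : 0 < log d := log_pos (by linarith)
  have hlK : log K / (ε / 4) ≤ log d := by
    rw [le_log_iff_exp_le (by linarith)]; exact (le_max_right _ _).trans hdD
  rw [div_le_iff₀ (by positivity)] at hlK
  obtain ⟨q, hq, hS⟩ := hC d (by exact_mod_cast hd2)
  have hle : (Q d : ℝ) ≤ q := by exact_mod_cast Nat.sInf_le (show q ∈ {q | Samples d q} from hS)
  have h1 : log (Q d) ≤ log K + ε / 2 * log d := by
    have hK : (0 : ℝ) < K := lt_max_of_lt_right one_pos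
    rcases Nat.eq_zero_or_pos (Q d) with h | h
    · rw [h, Nat.cast_zero, log_zero]
      exact add_nonneg (log_nonneg (le_max_right _ _)) (by positivity)
    · rw [← log_rpow (by linarith : (0 : ℝ) < d), ← log_mul hK.ne' (by positivity)]
      exact log_le_log (by exact_mod_cast h) ((hle.trans hq).trans
        (mul_le_mul_of_nonneg_right (le_max_left _ _) (by positivity)))
  have h2 : 0 ≤ log (Q d) := log_natCast_nonneg _
  rw [Real.dist_eq, sub_zero, abs_of_nonneg (div_nonneg h2 hl.le), div_lt_iff₀ hl]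
  nlinarith

/-- The exponent of the query complexity is zero: for every positive exponent an adaptive
randomized algorithm samples the whole class with at most `C * d ^ ε` first-order queries. -/
theorem result : (∀ ε : ℝ, 0 < ε → ∃ C : ℝ, ∀ d : ℕ, 2 ≤ d → ∃ q : ℕ, (q : ℝ) ≤ C * (d : ℝ) ^ ε ∧
      Samples d q) ∧
    (∀ d : ℕ, 2 ≤ d → {q | Samples d q}.Nonempty) ∧
    Tendsto (fun d : ℕ => log (Q d) / log d) atTop (𝓝 0) :=
  ⟨upper, exponent_zero⟩

end

end Vale.Agent.Results.P347.ZeroExponent
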